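import Vale.Agent.P321.R3.H94.Uni
import Vale.Agent.P321.R4.H101.Fin

/-!
Explicit quasi-polynomial upper bounds for worst-case trace reconstruction: at every fixed deletion
probability `q ∈ [0, 1)`, `T_q(n) ≤ exp ((log n) ^ 5)` for all large `n`; and for all `q ∈ [0, 1)`
and all `n ≥ 2`, `T_q(n) ≤ exp (C (1 + log (1 / p)) / p * (log n) ^ 4.991)` with `p = 1 - q` and one
absolute constant `C`.  The superpolynomial lower bound `n ^ (c log log n) ≤ T_q(n)` holds for all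
`q ≥ (log n) ^ (-c')` and all `n ≥ n₀`, with absolute constants `c`, `c'`, `n₀`; and `T_q(n)` is
nondecreasing in `n` and in `q`.
-/

namespace Vale.Agent.Results.P321.ExpLogFive

open Vale.Agent.P321
open scoped unitInterval

theorem result : (∀ q : I, (q : ℝ) < 1 → ∃ n₀ : ℕ, ∀ n : ℕ, n₀ ≤ n →
      T q n ≤ (⌊Real.exp ((Real.log n) ^ 5)⌋₊ : ℕ∞)) ∧
    (∃ C : ℝ, 0 < C ∧ ∀ q : I, (q : ℝ) < 1 → ∀ n : ℕ, 2 ≤ n →
      T q n ≤ (⌊Real.exp (C * ((1 + Real.log (1 / (1 - q))) / (1 - q)) *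
        (Real.log n) ^ (4.991 : ℝ))⌋₊ : ℕ∞)) ∧
    (∃ c c' : ℝ, 0 < c ∧ 0 < c' ∧ ∃ n₀ : ℕ, ∀ n : ℕ, n₀ ≤ n → ∀ q : I,
      (Real.log n) ^ (-c') ≤ (q : ℝ) →
        (⌈(n : ℝ) ^ (c * Real.log (Real.log n))⌉₊ : ℕ∞) ≤ T q n) ∧
    ∀ (q q' : I) (n n' : ℕ), q ≤ q' → n ≤ n' → T q n ≤ T q' n' :=
  ⟨R3.H614.exp_log5_of R3.H101.step5, R3.H94.exp_log_uni, R4.H101.lower_explicit,
    fun _ q' n _ h h' => (R3.H101.T_mono_q h n).trans (R3.H101.T_mono_n q' h')⟩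

end Vale.Agent.Results.P321.ExpLogFive
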